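import Vale.Agent.P073.PL.Spec
import Vale.Agent.P073.GBM.Lev865

/-!
# P073, block SpecPlate: `SpecLev2` (levels of a body of a plate)
-/

open Set Metric Topology Filter MeasureTheory
open scoped ENNReal NNReal

namespace P073.PL

open P073 P073.PR720 P073.GB73 P073.GBM P073.Gauge P073.GB1W P073.Cell P073.Plate
open Vale.Agent.P073.St (V)
open Vale.Agent.P073.AB
open Vale.Agent.P073.SQ (ev)
open P073.Net (dyc dyo)

namespace Lev2

/-- the numerical hypotheses on a body -/
structure Num (v : V) (N : ℕ) (m : Fin 3) (ζ : ℤ) (q0 q1 : V) (μ s r w₀ : ℝ) (c w : V)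
    (α β : Fin 3 → ℤ) : Prop where
  s0 : 0 < s
  sr : s < r
  mu0 : 0 ≤ μ
  w0 : 0 < w₀
  ab : ∀ k, k ≠ m → α k < β k
  wk : ∀ k, w₀ ≤ w k
  h1 : ∀ k, k ≠ m → pt v N α k + μ ≤ c k - r * w k
  h2 : ∀ k, k ≠ m → c k - s * w k + μ < pt v N α k + 1 / 2 ^ N
  h3 : ∀ k, k ≠ m → pt v N β k + μ < c k + s * w k
  h4 : ∀ k, k ≠ m → c k + r * w k + μ ≤ pt v N β k + 1 / 2 ^ N
  h5 : ∀ k, k ≠ m → q0 k + 1 / 2 ^ N ≤ c k - r * w k ∧ c k + r * w k ≤ q1 k - 1 / 2 ^ N
  hm : c m = ht v N m ζ
  h6 : μ < s * w m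
  h7 : r * w m ≤ 1 / 2 ^ N
  q0m : q0 m < ht v N m ζ
  q1m : ht v N m ζ < q1 m

variable {v : V} {N : ℕ} {m : Fin 3} {ζ : ℤ} {q0 q1 : V} {μ s r w₀ : ℝ} {c w : V}
  {α β a : Fin 3 → ℤ} {k : Fin 3}

theorem pt_eq_ht (h : a m = ζ) : pt v N a m = ht v N m ζ := by
  unfold pt ht
  rw [h]

namespace Num

theorem wpos (H : Num v N m ζ q0 q1 μ s r w₀ c w α β) (k : Fin 3) : 0 < w k :=
  H.w0.trans_le (H.wk k)

theorem sw (H : Num v N m ζ q0 q1 μ s r w₀ c w α β) (k : Fin 3) : s * w k < r * w k :=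
  mul_lt_mul_of_pos_right H.sr (H.wpos k)

theorem sw0 (H : Num v N m ζ q0 q1 μ s r w₀ c w α β) (k : Fin 3) : 0 < s * w k :=
  mul_pos H.s0 (H.wpos k)

theorem q0_lt (H : Num v N m ζ q0 q1 μ s r w₀ c w α β) (hk : k ≠ m) : q0 k < pt v N α k := by
  have := H.h5 k hk
  have := H.h2 k hk
  have := H.sw k
  have := H.mu0
  linarith

theorem lt_q1 (H : Num v N m ζ q0 q1 μ s r w₀ c w α β) (hk : k ≠ m) :
    pt v N β k + 1 / 2 ^ N < q1 k := by
  have := H.h5 k hk
  have := H.h3 k hk
  have := H.sw k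
  have := H.mu0
  linarith

theorem rectIn (H : Num v N m ζ q0 q1 μ s r w₀ c w α β) : RectIn v N m q0 q1 α β :=
  fun i hi => ⟨H.ab i hi, H.q0_lt hi, H.lt_q1 hi⟩

/-- the crossed lattice edges are in the cell -/
theorem edge_sub (H : Num v N m ζ q0 q1 μ s r w₀ c w α β) (ha : Cross2 m ζ α β a k) :
    edge v ((N, a), k) ⊆ Icc q0 q1 := by
  have hpos : (0:ℝ) < 1 / 2 ^ N := by positivity
  intro x hx
  rw [GBM.mem_edge] at hx
  have key : ∀ j, q0 j ≤ x j ∧ x j ≤ q1 j := by
    intro j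
    by_cases hj : j = k
    · subst hj
      have b1 := H.q0_lt ha.1
      have b2 := H.lt_q1 ha.1
      have b3 : pt v N α j + 1 / 2 ^ N ≤ pt v N β j := Lev.pt_add_le (H.ab j ha.1)
      rcases ha.2.2.1 with h | h
      · have e1 : pt v N a j = pt v N α j := pt_inj.2 h
        rw [e1] at hx
        exact ⟨by linarith [hx.2.1], by linarith [hx.2.2]⟩
      · have e1 : pt v N a j = pt v N β j := pt_inj.2 h
        rw [e1] at hx
        exact ⟨by linarith [hx.2.1], by linarith [hx.2.2]⟩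
    · rw [hx.1 j hj]
      by_cases hjm : j = m
      · subst hjm
        rw [pt_eq_ht ha.2.1]
        exact ⟨H.q0m.le, H.q1m.le⟩
      · have b1 := H.q0_lt hjm
        have b2 := H.lt_q1 hjm
        have b3 : pt v N α j + 1 / 2 ^ N ≤ pt v N a j := Lev.pt_add_le (ha.2.2.2 j hj hjm).1
        have b4 : pt v N a j ≤ pt v N β j := pt_le_pt.2 (ha.2.2.2 j hj hjm).2
        exact ⟨by linarith, by linarith⟩
  exact ⟨fun j => (key j).1, fun j => (key j).2⟩

/-- position of the uncrossed lattice edges -/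
theorem off (H : Num v N m ζ q0 q1 μ s r w₀ c w α β) (hkm : k ≠ m) (ham : a m = ζ)
    (ha : ¬ Cross2 m ζ α β a k) {x : V} (hx : x ∈ edge v ((N, a), k)) :
    (∀ j, |x j - c j| + μ ≤ s * w j) ∨ ∃ j, r * w j ≤ |x j - c j| - μ := by
  have hpos : (0:ℝ) < 1 / 2 ^ N := by positivity
  rw [GBM.mem_edge] at hx
  have xm : |x m - c m| + μ ≤ s * w m := by
    rw [hx.1 m (Ne.symm hkm), pt_eq_ht ham, H.hm, sub_self, abs_zero, zero_add]
    exact H.h6.le
  have low : ∀ j, j ≠ m → x j ≤ pt v N α j → ∃ j, r * w j ≤ |x j - c j| - μ := by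
    intro j hjm hj
    refine ⟨j, ?_⟩
    have b1 := H.h1 j hjm
    have b2 := neg_le_abs (x j - c j)
    linarith
  have upp : ∀ j, j ≠ m → pt v N β j + 1 / 2 ^ N ≤ x j → ∃ j, r * w j ≤ |x j - c j| - μ := by
    intro j hjm hj
    refine ⟨j, ?_⟩
    have b1 := H.h4 j hjm
    have b2 := le_abs_self (x j - c j)
    linarith
  have mid : ∀ j, j ≠ m → pt v N α j + 1 / 2 ^ N ≤ x j → x j ≤ pt v N β j →
      |x j - c j| + μ ≤ s * w j := by
    intro j hjm h1 h2
    have b1 := H.h2 j hjm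
    have b2 := H.h3 j hjm
    have b3 : |x j - c j| ≤ s * w j - μ := by
      rw [abs_le]
      constructor <;> linarith
    linarith
  by_cases hj : ∀ j, j ≠ k → j ≠ m → α j < a j ∧ a j ≤ β j
  · have hk : ¬ (a k = α k ∨ a k = β k) := fun h => ha ⟨hkm, ham, h, hj⟩
    push Not at hk
    rcases lt_or_gt_of_ne hk.1 with h1 | h1
    · right
      apply low k hkm
      have b1 : pt v N a k + 1 / 2 ^ N ≤ pt v N α k := Lev.pt_add_le h1
      linarith [hx.2.2]
    · rcases lt_or_gt_of_ne hk.2 with h2 | h2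
      · left
        intro j
        by_cases hjm : j = m
        · subst hjm; exact xm
        by_cases hjk : j = k
        · subst hjk
          have b1 : pt v N α j + 1 / 2 ^ N ≤ pt v N a j := Lev.pt_add_le h1
          have b2 : pt v N a j + 1 / 2 ^ N ≤ pt v N β j := Lev.pt_add_le h2
          exact mid j hjm (by linarith [hx.2.1]) (by linarith [hx.2.2])
        · have b1 : pt v N α j + 1 / 2 ^ N ≤ pt v N a j := Lev.pt_add_le (hj j hjk hjm).1
          have b2 : pt v N a j ≤ pt v N β j := pt_le_pt.2 (hj j hjk hjm).2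
          exact mid j hjm (by rw [hx.1 j hjk]; exact b1) (by rw [hx.1 j hjk]; exact b2)
      · right
        apply upp k hkm
        have b1 : pt v N β k + 1 / 2 ^ N ≤ pt v N a k := Lev.pt_add_le h2
        linarith [hx.2.1]
  · push Not at hj
    obtain ⟨j, hjk, hjm, hj⟩ := hj
    right
    by_cases h1 : α j < a j
    · have h2 : β j < a j := hj h1
      apply upp j hjm
      rw [hx.1 j hjk]
      exact Lev.pt_add_le h2
    · apply low j hjm
      rw [hx.1 j hjk]
      exact pt_le_pt.2 (not_lt.1 h1)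

end Num

variable {Vx B J I : Type} {e0 e1 : B → Vx} {inc : B → J → Prop} {qC : J → I → Prop} {Ω : Set V}
  {K : Cx3 e0 e1 inc qC Ω} {Λ : Set V} {h : V → V} {o : V} {A : V ≃L[ℝ] V} {η : ℝ} {cu cd : I}

/-- the data of a crossed edge -/
theorem edgeData (hK : Near2 K Λ h v N m ζ q0 q1 o A μ η cu cd)
    (H : Num v N m ζ q0 q1 μ s r w₀ c w α β) {b : B}
    (hb : K.arc b = edge v ((N, a), k)) (ha : Cross2 m ζ α β a k) :
    EdgeData K.toGraph h (o + A c) c A w s r μ η k (Lev.sg β a k) b := by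
  have hpos : (0:ℝ) < 1 / 2 ^ N := by positivity
  have hy0 : K.toGraph.y (e0 b) = pt v N a := hK.y0 b a k hb
  have hy1 : K.toGraph.y (e1 b) = pt v N a + (1 / 2 ^ N : ℝ) • ev k := hK.y1 b a k hb
  have hy1k : K.toGraph.y (e1 b) k = pt v N a k + 1 / 2 ^ N := by
    rw [hy1]; simp [ev_same]
  refine
    { sgn := ?_
      seg := ?_
      dir := ?_
      lip := hK.lip b a k hb
      sup := ?_
      der := hK.der b a k ha.1 ha.2.1 hb (H.edge_sub ha)
      mid := ?_
      pos := ?_ }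
  · unfold Lev.sg; split_ifs
    · exact Or.inl rfl
    · exact Or.inr rfl
  · rw [hy0, hy1]; exact hb
  · intro j hj
    rw [hy0, hy1]
    simp [ev_of_ne hj]
  · intro x hx
    have hx' : x ∈ edge v ((N, a), k) := hb ▸ hx
    rw [Lev.symm_sub]
    have e1 : A.symm (h x - o) - c - (x - c) = A.symm (h x - o) - x := by abel
    rw [e1]
    exact hK.sup a k ha.1 ha.2.1 (H.edge_sub ha) x hx'
  · intro j hj
    rw [hy0]
    by_cases hjm : j = m
    · subst hjm
      rw [pt_eq_ht ha.2.1, H.hm, sub_self, abs_zero, zero_add]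
      exact H.h6
    · have b1 : pt v N α j + 1 / 2 ^ N ≤ pt v N a j := Lev.pt_add_le (ha.2.2.2 j hj hjm).1
      have b2 : pt v N a j ≤ pt v N β j := pt_le_pt.2 (ha.2.2.2 j hj hjm).2
      have b3 := H.h2 j hjm
      have b4 := H.h3 j hjm
      have b5 : |pt v N a j - c j| < s * w j - μ := by
        rw [abs_lt]
        constructor <;> linarith
      linarith
  · have hkm := ha.1
    have b0 : pt v N α k + 1 / 2 ^ N ≤ pt v N β k := Lev.pt_add_le (H.ab k hkm)
    have b1 := H.h1 k hkm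
    have b2 := H.h2 k hkm
    have b3 := H.h3 k hkm
    have b4 := H.h4 k hkm
    have b5 := H.sw0 k
    unfold Lev.sg InOut
    rw [hy1k, hy0]
    by_cases hβ : a k = β k
    · left
      rw [if_pos hβ]
      have e1 : pt v N a k = pt v N β k := pt_inj.2 hβ
      rw [e1]
      refine ⟨?_, ?_, ?_⟩ <;> linarith
    · right
      rw [if_neg hβ]
      have e1 : pt v N a k = pt v N α k := pt_inj.2 (ha.2.2.1.resolve_right hβ)
      rw [e1]
      refine ⟨?_, ?_, ?_⟩ <;> linarith

/-- the indices of the crossed edges -/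
theorem mem_box (hab : ∀ k, k ≠ m → α k < β k) (ha : Cross2 m ζ α β a k) :
    a ∈ Icc (Function.update α m ζ) (Function.update β m ζ) := by
  have h3 : ∀ j, Function.update α m ζ j ≤ a j ∧ a j ≤ Function.update β m ζ j := by
    intro j
    by_cases hjm : j = m
    · subst hjm
      rw [Function.update_self, Function.update_self, ha.2.1]
      exact ⟨le_rfl, le_rfl⟩
    · rw [Function.update_of_ne hjm, Function.update_of_ne hjm]
      by_cases hj : j = k
      · subst hj
        rcases ha.2.2.1 with h | h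
        · rw [h]; exact ⟨le_refl _, (hab _ hjm).le⟩
        · rw [h]; exact ⟨(hab _ hjm).le, le_refl _⟩
      · exact ⟨(ha.2.2.2 j hj hjm).1.le, (ha.2.2.2 j hj hjm).2⟩
  exact ⟨fun j => (h3 j).1, fun j => (h3 j).2⟩

theorem finite_cr2 (hab : ∀ k, k ≠ m → α k < β k) : (cr2 K v N m ζ α β).Finite := by
  classical
  have hchoose : ∀ b : B, ∃ ak : (Fin 3 → ℤ) × Fin 3, b ∈ cr2 K v N m ζ α β →
      K.arc b = edge v ((N, ak.1), ak.2) ∧ Cross2 m ζ α β ak.1 ak.2 := by
    intro b
    by_cases hb : b ∈ cr2 K v N m ζ α β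
    · obtain ⟨z, k, h1, h2⟩ := hb
      exact ⟨(z, k), fun _ => ⟨h1, h2⟩⟩
    · exact ⟨(0, 0), fun h => absurd h hb⟩
  choose ak hak using hchoose
  refine Set.Finite.of_injOn (f := ak)
    (t := Icc (Function.update α m ζ) (Function.update β m ζ) ×ˢ (univ : Set (Fin 3))) ?_ ?_
    ((Set.finite_Icc _ _).prod Set.finite_univ)
  · intro b hb
    exact ⟨mem_box hab (hak b hb).2, mem_univ _⟩
  · intro b hb b' hb' hbb
    apply arc_injective K
    rw [(hak b hb).1, (hak b' hb').1, hbb]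

/-- the crossed edges are few -/
theorem card_le {P : Finset B} {ca : B → Fin 3 → ℤ} {ck : B → Fin 3} {R : ℝ}
    (hab : ∀ k, k ≠ m → α k < β k) (hR : ∀ i, i ≠ m → ((β i - α i + 1 : ℤ) : ℝ) ≤ R)
    (hP : ∀ b ∈ P, K.arc b = edge v ((N, ca b), ck b) ∧ Cross2 m ζ α β (ca b) (ck b)) :
    (P.card : ℝ) ≤ 6 * R ^ 2 := by
  classical
  have hR0 : 0 ≤ R := by
    obtain ⟨i, hi⟩ := exists_ne m
    refine le_trans ?_ (hR i hi)
    have := hab i hi
    have h1 : (0:ℤ) ≤ β i - α i + 1 := by omega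
    exact_mod_cast h1
  have h1 : P.card ≤ (Finset.Icc (Function.update α m ζ) (Function.update β m ζ) ×ˢ
      (Finset.univ : Finset (Fin 3))).card := by
    refine Finset.card_le_card_of_injOn (fun b => (ca b, ck b)) ?_ ?_
    · intro b hb
      simp only [Finset.coe_product, Finset.coe_univ, Set.mem_prod, Finset.coe_Icc,
        mem_univ, and_true]
      exact mem_box hab (hP b hb).2
    · intro b hb b' hb' hbb
      have e1 : ca b = ca b' := congrArg Prod.fst hbb
      have e2 : ck b = ck b' := congrArg Prod.snd hbb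
      apply arc_injective K
      rw [(hP b hb).1, (hP b' hb').1, e1, e2]
  have h2 : (Finset.Icc (Function.update α m ζ) (Function.update β m ζ) ×ˢ
      (Finset.univ : Finset (Fin 3))).card =
      (∏ k, (Function.update β m ζ k + 1 - Function.update α m ζ k).toNat) * 3 := by
    rw [Finset.card_product, Pi.card_Icc]
    simp
  rw [h2] at h1
  have h3 : ∀ i, i ≠ m →
      ((Function.update β m ζ i + 1 - Function.update α m ζ i).toNat : ℝ) ≤ R := by
    intro i hi
    rw [Function.update_of_ne hi, Function.update_of_ne hi]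
    have h4 : ((β i + 1 - α i).toNat : ℤ) = β i - α i + 1 := by
      have := hab i hi
      omega
    have h5 : ((β i + 1 - α i).toNat : ℝ) = ((β i - α i + 1 : ℤ) : ℝ) := by
      exact_mod_cast congrArg (fun z : ℤ => (z : ℝ)) h4
    rw [h5]
    exact hR i hi
  have h4 : ((Function.update β m ζ m + 1 - Function.update α m ζ m).toNat : ℝ) = 1 := by
    rw [Function.update_self, Function.update_self]
    have : (ζ + 1 - ζ).toNat = 1 := by
      have : ζ + 1 - ζ = 1 := by ring
      rw [this]; rfl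
    rw [this]; norm_num
  have h5 : ((∏ k, (Function.update β m ζ k + 1 - Function.update α m ζ k).toNat : ℕ) : ℝ) ≤
      R ^ 2 := by
    rw [Nat.cast_prod, ← Finset.mul_prod_erase Finset.univ _ (Finset.mem_univ m), h4, one_mul]
    calc ∏ x ∈ Finset.univ.erase m,
          ((Function.update β m ζ x + 1 - Function.update α m ζ x).toNat : ℝ)
        ≤ ∏ _x ∈ Finset.univ.erase m, R :=
          Finset.prod_le_prod (fun _ _ => Nat.cast_nonneg _) fun i hi =>
            h3 i (Finset.ne_of_mem_erase hi)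
      _ = R ^ 2 := by
          rw [Finset.prod_const, Finset.card_erase_of_mem (Finset.mem_univ m)]
          simp
  have h6 : (P.card : ℝ) ≤ R ^ 2 * 3 := by
    calc (P.card : ℝ) ≤ (((∏ k, (Function.update β m ζ k + 1 -
          Function.update α m ζ k).toNat) * 3 : ℕ) : ℝ) := by exact_mod_cast h1
      _ = ((∏ k, (Function.update β m ζ k + 1 - Function.update α m ζ k).toNat : ℕ) : ℝ) * 3 := by
          push_cast; ring
      _ ≤ R ^ 2 * 3 := mul_le_mul_of_nonneg_right h5 (by norm_num)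
  have h7 : 0 ≤ R ^ 2 := by positivity
  linarith

end Lev2

open Lev2

/-- **(LEV2)** -/
theorem specLev2 : SpecLev2 := by
  classical
  intro Vx B J I e0 e1 inc qC Ω K Λ h v N m ζ q0 q1 o A μ η cu cd hK c w α β s r w₀ R hs hsr hw₀ hab
    hw h1 h2 h3 h4 h5 hcm h6 h7 hR h8
  have hq0 : q0 m < ht v N m ζ := by
    have := hK.lat.mid
    have := hK.lat.lt m
    linarith
  have hq1 : ht v N m ζ < q1 m := by
    have := hK.lat.mid
    have := hK.lat.lt m
    linarith
  have H : Num v N m ζ q0 q1 μ s r w₀ c w α β :=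
    ⟨hs, hsr, hK.mu0, hw₀, hab, hw, h1, h2, h3, h4, h5, hcm, h6, h7, hq0, hq1⟩
  have hfin : (cr2 K v N m ζ α β).Finite := finite_cr2 hab
  -- indices
  have hchoose : ∀ b : B, ∃ ak : (Fin 3 → ℤ) × Fin 3, b ∈ cr2 K v N m ζ α β →
      K.arc b = edge v ((N, ak.1), ak.2) ∧ Cross2 m ζ α β ak.1 ak.2 := by
    intro b
    by_cases hb : b ∈ cr2 K v N m ζ α β
    · obtain ⟨z, k, h1, h2⟩ := hb
      exact ⟨(z, k), fun _ => ⟨h1, h2⟩⟩
    · exact ⟨(0, 0), fun h => absurd h hb⟩
  choose ak hak using hchoose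
  set P : Finset B := hfin.toFinset with hP
  have hPm : ∀ b, b ∈ P ↔ b ∈ cr2 K v N m ζ α β := fun b => by
    rw [hP, Set.Finite.mem_toFinset]
  have hPc : (P : Set B) = cr2 K v N m ζ α β := by
    ext b; rw [Finset.mem_coe, hPm]
  have hdat : ∀ b ∈ P, EdgeData K.toGraph h (o + A c) c A w s r μ η (ak b).2
      (Lev.sg β (ak b).1 (ak b).2) b := fun b hb =>
    edgeData hK H (hak b ((hPm b).1 hb)).1 (hak b ((hPm b).1 hb)).2
  have hsum : ∑ b ∈ P, (2 * (μ / w (ak b).2) + η / w (ak b).2) < r - s := by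
    have hle : ∀ b ∈ P, 2 * (μ / w (ak b).2) + η / w (ak b).2 ≤ (2 * μ + η) / w₀ := by
      intro b _
      have e1 : 2 * (μ / w (ak b).2) + η / w (ak b).2 = (2 * μ + η) / w (ak b).2 := by ring
      rw [e1]
      have h7 : 0 ≤ 2 * μ + η := by linarith [hK.mu0, hK.eta0]
      exact div_le_div_of_nonneg_left h7 hw₀ (hw _)
    have hcard : (P.card : ℝ) ≤ 6 * R ^ 2 :=
      card_le (K := K) (v := v) (N := N) (ca := fun b => (ak b).1) (ck := fun b => (ak b).2) hab hR
        fun b hb => hak b ((hPm b).1 hb)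
    have h8' : 0 ≤ (2 * μ + η) / w₀ := by
      have : 0 ≤ 2 * μ + η := by linarith [hK.mu0, hK.eta0]
      positivity
    calc ∑ b ∈ P, (2 * (μ / w (ak b).2) + η / w (ak b).2) ≤ ∑ _b ∈ P, (2 * μ + η) / w₀ :=
          Finset.sum_le_sum hle
      _ = P.card * ((2 * μ + η) / w₀) := by rw [Finset.sum_const, nsmul_eq_mul]
      _ ≤ 6 * R ^ 2 * ((2 * μ + η) / w₀) := mul_le_mul_of_nonneg_right hcard h8'
      _ < r - s := h8
  have hoff : ∀ b ∉ P, ∀ x ∈ K.toGraph.arc b, ∀ t ∈ Ioo s r,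
      h x ∉ frontier ((bBody (o + A c) A w ∅).at t) := by
    intro b hb x hx t ht'
    have ht0 : 0 < t := hs.trans ht'.1
    rcases hK.off b with ⟨a, k, hkm, ham, hba, hsub⟩ | hfar
    · have hx' : x ∈ edge v ((N, a), k) := hba ▸ hx
      have hnc : ¬ Cross2 m ζ α β a k := fun hc => hb ((hPm b).2 ⟨a, k, hba, hc⟩)
      refine notMem_frontier_of_close (μ := μ) (c := c) (x := x) H.wpos hs ht' ?_
        (H.off hkm ham hnc hx')
      rw [Lev.symm_sub]
      have e1 : A.symm (h x - o) - c - (x - c) = A.symm (h x - o) - x := by abel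
      rw [e1]
      exact hK.sup a k hkm ham hsub x hx'
    · intro hfr'
      have h7' := ((mem_frontier_at ht0).1 hfr').1
      refine hfar x hx ⟨?_, fun k hk => ?_⟩
      · have h9 := h7' m
        rw [Lev.symm_sub, Pi.sub_apply, hcm] at h9
        have h10 : t * w m < r * w m := mul_lt_mul_of_pos_right ht'.2 (H.wpos m)
        linarith
      · have h9 := h7' k
        rw [Lev.symm_sub] at h9
        have h10 : t * w k < r * w k := mul_lt_mul_of_pos_right ht'.2 (H.wpos k)
        have h11 := abs_le.1 h9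
        rw [Pi.sub_apply] at h11
        have h12 := h5 k hk
        constructor <;> linarith [h11.1, h11.2]
  obtain ⟨T, hTs, hTc, y, hy1, hy2⟩ := exists_levels H.wpos hs hK.mu0 hK.eta0 P
    (fun b => (ak b).2) (fun b => Lev.sg β (ak b).1 (ak b).2) hdat hsum hoff
  rw [hPc] at hy1
  refine ⟨T, hTs, ?_, H.rectIn, y, hy1, ?_⟩
  · refine good_bBody H.wpos (fun t ht => hs.trans (hTs ht).1) hTc fun t ht' z hz => ?_
    have ht0 : 0 < t := hs.trans (hTs ht').1
    have h7' := (mem_at ht0).1 hz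
    refine hK.inside z ⟨?_, fun k hk => ?_⟩
    · have h9 := h7' m
      rw [Lev.symm_sub, Pi.sub_apply, hcm] at h9
      have h10 : t * w m < r * w m := mul_lt_mul_of_pos_right (hTs ht').2 (H.wpos m)
      linarith
    · have h9 := h7' k
      rw [Lev.symm_sub] at h9
      have h10 : t * w k < r * w k := mul_lt_mul_of_pos_right (hTs ht').2 (H.wpos k)
      have h11 := abs_le.1 h9
      rw [Pi.sub_apply] at h11
      have h12 := h5 k hk
      constructor <;> linarith [h11.1, h11.2]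
  · intro t ht' b a k hba hc
    have hb : b ∈ P := (hPm b).2 ⟨a, k, hba, hc⟩
    obtain ⟨g1, g2, g3⟩ := hy2 t ht' b hb
    have hb' := hak b ((hPm b).1 hb)
    obtain ⟨ea, ek⟩ := edge_inj (hb'.1.symm.trans hba)
    rw [Lev.symm_sub, ea, ek] at g2
    rw [ek] at g3
    refine ⟨g1, ?_, fun j hj => ?_⟩
    · rw [Pi.sub_apply] at g2
      unfold Lev.sg at g2
      split_ifs at g2 ⊢ with hβ
      · linarith
      · linarith
    · have g4 := g3 j hj
      rw [Lev.symm_sub, Pi.sub_apply] at g4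
      have e2 : K.toGraph.y (e0 b) = pt v N a := hK.y0 b a k hba
      rw [e2] at g4
      have e3 : A.symm (y t b - o) j - c j - (pt v N a j - c j) =
          A.symm (y t b - o) j - pt v N a j := by ring
      rwa [e3] at g4

end P073.PL
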